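import Mathlib

/-! Checker for the one-variable certificates. All data are integers at the scale
`D = 1048576`; signed numbers are differences of natural numbers. -/

namespace Vale.Agent.P237

structure Z where
  (p m : ℕ)

namespace Z

def add (a b : Z) : Z := ⟨Nat.add a.p b.p, Nat.add a.m b.m⟩
def sub (a b : Z) : Z := ⟨Nat.add a.p b.m, Nat.add a.m b.p⟩
def neg (a : Z) : Z := ⟨a.m, a.p⟩
def mul (a b : Z) : Z :=
  ⟨Nat.add (Nat.mul a.p b.p) (Nat.mul a.m b.m), Nat.add (Nat.mul a.p b.m) (Nat.mul a.m b.p)⟩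
def nm (k : ℕ) (a : Z) : Z := ⟨Nat.mul k a.p, Nat.mul k a.m⟩
def nrm (a : Z) : Z := ⟨Nat.sub a.p a.m, Nat.sub a.m a.p⟩
def dv (a : Z) (K : ℕ) : Z := ⟨Nat.div a.p K, Nat.div (Nat.add a.m (Nat.pred K)) K⟩
def of (k : ℤ) : Z := ⟨k.toNat, (-k).toNat⟩
def nn (a : Z) : Bool := Nat.ble a.m a.p
def o : Z := ⟨0, 0⟩

end Z

structure P3 where
  (c0 c1 c2 : Z)

structure P5 where
  (c0 c1 c2 c3 c4 : Z)

def P3.add (a b : P3) : P3 := ⟨a.c0.add b.c0, a.c1.add b.c1, a.c2.add b.c2⟩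
def P3.sm (k : Z) (a : P3) : P3 := ⟨k.mul a.c0, k.mul a.c1, k.mul a.c2⟩
def P3.nm (k : ℕ) (a : P3) : P3 := ⟨a.c0.nm k, a.c1.nm k, a.c2.nm k⟩
def P3.mul (a b : P3) : P5 :=
  ⟨a.c0.mul b.c0, (a.c0.mul b.c1).add (a.c1.mul b.c0),
    ((a.c0.mul b.c2).add (a.c1.mul b.c1)).add (a.c2.mul b.c0),
    (a.c1.mul b.c2).add (a.c2.mul b.c1), a.c2.mul b.c2⟩
def P3.nrm (a : P3) : P3 := ⟨a.c0.nrm, a.c1.nrm, a.c2.nrm⟩
/-- product of two linear polynomials -/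
def lin2 (a0 a1 b0 b1 : Z) : P3 := ⟨a0.mul b0, (a0.mul b1).add (a1.mul b0), a1.mul b1⟩
def P5.add (a b : P5) : P5 :=
  ⟨a.c0.add b.c0, a.c1.add b.c1, a.c2.add b.c2, a.c3.add b.c3, a.c4.add b.c4⟩
def P5.add3 (a : P5) (b : P3) : P5 := ⟨a.c0.add b.c0, a.c1.add b.c1, a.c2.add b.c2, a.c3, a.c4⟩
def P5.sm (k : Z) (a : P5) : P5 := ⟨k.mul a.c0, k.mul a.c1, k.mul a.c2, k.mul a.c3, k.mul a.c4⟩
def P5.nm (k : ℕ) (a : P5) : P5 := ⟨a.c0.nm k, a.c1.nm k, a.c2.nm k, a.c3.nm k, a.c4.nm k⟩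
def P5.neg (a : P5) : P5 := ⟨a.c0.neg, a.c1.neg, a.c2.neg, a.c3.neg, a.c4.neg⟩
def P5.all (a : P5) (k : Z) : P5 := ⟨a.c0.add k, a.c1.add k, a.c2.add k, a.c3.add k, a.c4.add k⟩
def P5.dv (a : P5) (K : ℕ) : P5 := ⟨a.c0.dv K, a.c1.dv K, a.c2.dv K, a.c3.dv K, a.c4.dv K⟩

/-- twelve times the Bernstein coefficients -/
def P5.tob (a : P5) : P5 :=
  ⟨a.c0.nm 12, (a.c0.nm 12).add (a.c1.nm 3), ((a.c0.nm 12).add (a.c1.nm 6)).add (a.c2.nm 2),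
    (((a.c0.nm 12).add (a.c1.nm 9)).add (a.c2.nm 6)).add (a.c3.nm 3),
    ((((a.c0.add a.c1).add a.c2).add a.c3).add a.c4).nm 12⟩

def P3.tob (a : P3) : P5 :=
  ⟨a.c0.nm 12, (a.c0.nm 12).add (a.c1.nm 3), ((a.c0.nm 12).add (a.c1.nm 6)).add (a.c2.nm 2),
    ((a.c0.nm 12).add (a.c1.nm 9)).add (a.c2.nm 6), ((a.c0.add a.c1).add a.c2).nm 12⟩

def P5.pos (b : P5) : Bool := b.c0.nn && b.c1.nn && b.c2.nn && b.c3.nn && b.c4.nn

def P5.mid (b : P5) : Z := (((b.c0.add (b.c1.nm 4)).add (b.c2.nm 6)).add (b.c3.nm 4)).add b.c4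

def P5.lft (b : P5) : P5 :=
  ⟨b.c0.nm 16, (b.c0.add b.c1).nm 8, ((b.c0.add (b.c1.nm 2)).add b.c2).nm 4,
    (((b.c0.add (b.c1.nm 3)).add (b.c2.nm 3)).add b.c3).nm 2, b.mid⟩

def P5.rgt (b : P5) : P5 :=
  ⟨b.mid, (((b.c1.add (b.c2.nm 3)).add (b.c3.nm 3)).add b.c4).nm 2,
    ((b.c2.add (b.c3.nm 2)).add b.c4).nm 4, (b.c3.add b.c4).nm 8, b.c4.nm 16⟩

/-- adaptive positivity test in the Bernstein basis -/
def bern : ℕ → P5 → Bool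
  | 0, b => b.pos
  | d + 1, b => b.pos || (bern d b.lft && bern d b.rgt)

structure Node where
  (s g : ℕ)
  (u v x : ℤ)

structure Cell where
  (n a1 a2 T1 T2 Tq sg c11 c22 ib mu ka pen dl : ℕ)
  (c12 f0 xi l0 cL P0 u0 v0 x0 : ℤ)
  lam : List (ℕ × ℕ)
  nodes : List Node

/-- `20 D^3` times the sum of the hinges at the point `Y / D^2` -/
def hsum : List (ℕ × ℕ) → ℕ → ℕ
  | [], _ => 0
  | l :: L, Y => Nat.add (Nat.mul l.2 (Nat.sub (Nat.mul 20 Y) (Nat.mul l.1 1099511627776)))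
      (hsum L Y)

def two (b A1 A2 : P5) : Bool := bern 5 (b.add A1) && bern 5 (b.add A2)

/-- both values of the parameter, with and without the gradient term -/
def four (b A1 A2 PP : P5) : Bool := two b A1 A2 && two (b.add PP) A1 A2

/-- the gradient term for the bound `p ≤ (T - sg S ^ 2) / D ^ 2` -/
def pv (Q S2 : P3) (T sg : ℕ) : P5 :=
  (Q.mul ⟨(Z.sub ⟨T, 0⟩ (S2.c0.nm sg)).nrm, (S2.c1.nm sg).neg, (S2.c2.nm sg).neg⟩).tob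

/-- an upper bound for `D a / T` -/
def xr (a T : ℕ) : ℕ := Nat.succ (Nat.div (Nat.mul a 1048576) T)

def al (WS : P3) (a : ℕ) : P5 :=
  (WS.nm (Nat.mul 290142196707511001929482240 a)).tob.all
    ⟨0, Nat.mul 1825416864328650338155252615741440 (Nat.mul a a)⟩

/-- `2 D^2` times the primitive of the linear function with end values `u0`, `u1` -/
def prim (P0 u0 u1 : Z) (h : ℕ) : P3 := ⟨P0, u0.nm (Nat.mul 2 h), ((u1.sub u0).nrm).nm h⟩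

/-- the Taylor polynomial of the negative power -/
def tay (n a h g : ℕ) : P5 :=
  let r0 := Z.nrm ⟨Nat.mul g a, 268435456⟩
  let r1 : Z := ⟨Nat.mul g h, 0⟩
  let m2 := Nat.mul n (Nat.succ n)
  let m3 := Nat.mul m2 (Nat.add n 2)
  let m1 := Nat.mul n 432345564227567616
  ((lin2 r0 r1 r0 r1).mul
    ⟨Z.sub ⟨Nat.mul m2 805306368, 0⟩ (r0.nm m3), (r1.nm m3).neg, Z.o⟩).add3
    ⟨Z.sub ⟨116056878683004400771792896, 0⟩ (r0.nm m1), (r1.nm m1).neg, Z.o⟩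

namespace Cell

variable (c : Cell)

/-- `30 xi^2 (4 c11 - 4 c12 + c22)` -/
def ce : Z := ((Z.of c.xi).mul (Z.of c.xi)).mul
  ((Z.sub ⟨Nat.add (Nat.mul 4 c.c11) c.c22, 0⟩ ((Z.of c.c12).nm 4)).nm 30)

/-- the part depending on `y`, where `Y = D^2 y` and `h0 + h1 t` bounds the hinges -/
def yv (L Y : P3) (h0 h1 : Z) : P5 :=
  let q : P3 := ⟨(Z.sub (Y.c0.nm c.n) ⟨1099511627776, 0⟩).nrm, Y.c1.nm c.n, Y.c2.nm c.n⟩
  let l := ((Z.of c.l0).nm 290142196707511001929482240).neg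
  (((((L.add (q.sm c.ce.neg)).nrm).mul q).add ((Y.mul Y).nm (Nat.mul 263882790666240 c.ka))).add3
    ⟨((l.mul Y.c0).sub (h0.nm 14507109835375550096474112)).sub
        ⟨Nat.mul 319014718988379809496913694467282698240 c.pen, 0⟩,
      (l.mul Y.c1).sub (h1.nm 14507109835375550096474112), l.mul Y.c2⟩).tob

def eq (e : ℕ) : Z := Z.nrm ⟨Nat.mul c.n (Nat.mul e 137438953472), 1099511627776⟩

def ec (e : ℕ) : Z :=
  (c.yv ⟨Z.o, Z.o, Z.o⟩ ⟨⟨Nat.mul e 137438953472, 0⟩, Z.o, Z.o⟩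
    ⟨hsum c.lam (Nat.mul e 137438953472), 0⟩ Z.o).c0.nrm

/-- the point `y = e / 8` -/
def node (b Lb : P5) (e : ℕ) : P5 := (b.add (Lb.sm (c.eq e))).all (c.ec e)

/-- the nodes `e / 8` below `X / D^2` -/
def eNodes (b Lb A1 A2 PP : P5) (X : ℕ) : ℕ → Bool
  | 0 => true
  | e + 1 => (Nat.blt X (Nat.mul e 137438953472) || four (c.node b Lb e) A1 A2 PP) &&
      eNodes b Lb A1 A2 PP X e

/-- the curve `y = (s / T) ^ 2` -/
def curve (L : P3) (xa xb : ℕ) : P5 :=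
  let ha := hsum c.lam (Nat.mul xa xa)
  let d := Z.nrm ⟨xb, xa⟩
  c.yv L (lin2 ⟨xa, 0⟩ d ⟨xa, 0⟩ d) ⟨ha, 0⟩ (Z.nrm ⟨hsum c.lam (Nat.mul xb xb), ha⟩)

/-- the part that does not depend on the parameters -/
def bp (a h g : ℕ) (w0 w1 : Z) (P F z y1 y2 : P3) : P5 :=
  (((((z.mul y1).add (P.mul y2)).nm 32985348833280).add
    ((F.mul ⟨⟨a, 0⟩, ⟨h, 0⟩, Z.o⟩).nm (Nat.mul 145071098353755500964741120 (Nat.pred c.n)))).neg.add3
    ⟨((((Z.of c.cL).sub ⟨c.mu, 0⟩).sub w0).add ⟨524288, 0⟩).nm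
        319014718988379809496913694467282698240,
      w1.neg.nm 319014718988379809496913694467282698240, Z.o⟩).tob.add
    (((tay c.n a h g).tob.nm (Nat.mul (Nat.mul 46116860184273879040 c.mu) (Nat.pow g c.n))).dv
      (Nat.pow 256 (Nat.add c.n 3)))

/-- the coefficient of the gradient term -/
def qp (v0 v1 x0 x1 : Z) : P3 :=
  let dv := (v1.sub v0).nrm
  (((lin2 v0 dv v0 dv).sm ⟨0, Nat.mul 131941395333120 c.ib⟩).add
    ⟨x0.nm 290142196707511001929482240, (x1.sub x0).nm 290142196707511001929482240, Z.o⟩).nrm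

/-- the tests that involve the variable `y` -/
def ytest (a s : ℕ) (b A1 A2 PP : P5) (L Q S2 : P3) : Bool :=
  let xa := xr a c.T2
  let xb := xr s c.T2
  let x1 := xr s c.T1
  let dd := Nat.add (Nat.mul c.dl 1048576) (Nat.mul xa xa)
  Nat.ble (Nat.mul xb xb) (Nat.add (Nat.mul c.dl 1048576) 962072674304) &&
    c.eNodes b L.tob A1 A2 PP (Nat.mul xb xb) 8 && four (b.add (c.curve L xa xb)) A1 A2 PP &&
    cond (Nat.ble x1 1048576)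
      (Nat.ble (Nat.mul x1 x1) dd &&
        four (b.add (c.curve L (xr a c.T1) x1)) A1 A2 (pv Q S2 (Nat.mul c.T1 c.T1) 1))
      (Nat.ble 1099511627776 dd && two (c.node b L.tob 8) A1 A2)

def piece (a : ℕ) (u0 v0 x0 P0 F0 : Z) (N : Node) : Bool :=
  let h := Nat.sub N.s a
  let w0 := (u0.add v0).nrm
  let w1 := (((Z.of N.u).add (Z.of N.v)).sub w0).nrm
  let P := prim P0 u0 (Z.of N.u) h
  let F := prim F0 x0 (Z.of N.x) h
  let WS : P3 := ⟨w0.nm a, (w0.nm h).add (w1.nm a), w1.nm h⟩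
  let S2 : P3 := ⟨⟨Nat.mul a a, 0⟩, ⟨Nat.mul 2 (Nat.mul a h), 0⟩, ⟨Nat.mul h h, 0⟩⟩
  let z : P3 := P3.nrm ⟨(WS.c0.nm 2).sub ((Z.of c.f0).nm 2097152), WS.c1.nm 2, WS.c2.nm 2⟩
  let y1 := ((z.nm c.c11).add (P.sm (Z.of c.c12).neg)).nrm
  let y2 := ((P.nm c.c22).add (z.sm (Z.of c.c12).neg)).nrm
  let b := c.bp a h N.g w0 w1 P F z y1 y2
  let A1 := al WS c.a1
  let A2 := al WS c.a2
  let Q := c.qp v0 (Z.of N.v) x0 (Z.of N.x)
  let PP := pv Q S2 c.Tq c.sg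
  Nat.blt a N.s && w0.nn && (w0.add w1).nn && Nat.blt 0 N.g && bern 3 F.tob &&
    cond (Nat.beq c.T1 0) (four b A1 A2 PP)
      (c.ytest a N.s b A1 A2 PP (((y1.nm 2).add y2).sm ((Z.of c.xi).nm 62914560)) Q S2)

/-- all pieces; `fin` tests the final state -/
def pieces (fin : ℕ → Z → Z → Z → Bool) : List Node → ℕ → Z → Z → Z → Z → Z → Bool
  | [], a, u0, v0, _, P0, _ => fin a u0 v0 P0
  | N :: L, a, u0, v0, x0, P0, F0 => c.piece a u0 v0 x0 P0 F0 N &&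
      pieces fin L N.s (Z.of N.u) (Z.of N.v) (Z.of N.x)
        (P0.add ((u0.add (Z.of N.u)).nm (Nat.sub N.s a))).nrm
        (F0.add ((x0.add (Z.of N.x)).nm (Nat.sub N.s a))).nrm

def run (fin : ℕ → Z → Z → Z → Bool) : Bool :=
  c.pieces fin c.nodes 0 (Z.of c.u0) (Z.of c.v0) (Z.of c.x0) (Z.of c.P0) Z.o

/-- the side conditions used for one piece -/
def hd : Prop :=
  0 < c.n ∧ (c.T1 = 0 → c.xi = 0 ∧ c.l0 = 0 ∧ c.ka = 0 ∧ c.lam = []) ∧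
  (c.T1 ≠ 0 → c.sg = 1 ∧ c.Tq = c.T2 * c.T2 ∧ 0 < c.T2 ∧ 131072 ≤ c.dl ∧
    (8796093022208 * (c.ka : ℤ) - c.xi ^ 2 * (4 * c.c11 - 4 * c.c12 + c.c22) * c.n ^ 2) * c.dl ^ 2
      ≤ 38685626227668133590597632 * c.pen)

instance : Decidable c.hd := by unfold hd; infer_instance

end Cell

/-! ### the energy conditions -/

section Energy

variable {R : Type} [Field R] (n B1 B2 B3 b : R)

def ep1 (k t : R) : R :=
  (t - b) * (2 * k + n - 2) + k * (b - B1 + 2 * B2 * (k + n - 2) - B3 * (k + n - 2) ^ 2)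

def ep2 (k t : R) : R :=
  (t - b) * (2 * k + n - 2) + (k + n - 2) * (b - B1 - 2 * B2 * k - B3 * k ^ 2)

def ea (k : R) : R := b - B1 + B2 * (n - 2) + B3 * k * (k + n - 2)

def eth (j : R) : R := 1999 / 30000 * (n + 1) * j * (j + n - 2)

def ef1 (s k : R) : R := ep1 n B1 B2 B3 b k (eth n (k - 1)) + s * k * ea n B1 B2 B3 b k

def ef2 (s k : R) : R := ep2 n B1 B2 B3 b k (eth n (k + 1)) + s * (k + n - 2) * ea n B1 B2 B3 b k

variable [LinearOrder R]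

/-- nonnegative forward differences -/
def newt (v0 v1 v2 v3 : R) : Prop :=
  0 ≤ v0 ∧ v0 ≤ v1 ∧ 2 * v1 ≤ v2 + v0 ∧ 3 * v2 + v0 ≤ v3 + 3 * v1

def newtf (f : R → R) : Prop := newt (f 6) (f 7) (f 8) (f 9)

def eok : Prop :=
  0 < b ∧ b ≤ 1999 / 2000 * (n + 1) ∧
  0 ≤ (1999 / 2000 * (n + 1) - b) * (n + 2) + n * (b - B1 - 4 * B2 - 4 * B3) ∧
  0 ≤ ep1 n B1 B2 B3 b 4 (1999 / 2000 * (n + 1)) ∧ 0 ≤ ep2 n B1 B2 B3 b 4 (eth n 5) ∧
  4 * (n + 2) * ea n B1 B2 B3 b 4 ^ 2 ≤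
    ep1 n B1 B2 B3 b 4 (1999 / 2000 * (n + 1)) * ep2 n B1 B2 B3 b 4 (eth n 5) ∧
  newtf (ef1 n B1 B2 B3 b 1) ∧ newtf (ef1 n B1 B2 B3 b (-1)) ∧
  newtf (ef2 n B1 B2 B3 b 1) ∧ newtf (ef2 n B1 B2 B3 b (-1))

instance : Decidable (eok n B1 B2 B3 b) := by unfold eok newtf newt; infer_instance

end Energy

/-- the sum of the table values with the weights of the hinges -/
def tsum (tab : ℕ → ℤ) : List (ℕ × ℕ) → ℤ
  | [] => 0
  | l :: L => l.2 * tab l.1 + tsum tab L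

namespace Cell

variable (c : Cell)

def det : ℤ := c.c11 * c.c22 - c.c12 ^ 2

/-- the side conditions of a cell for one dimension -/
def hdA (tab : ℕ → ℤ) : Prop :=
  c.hd ∧ c.sg = 1 ∧ c.Tq = c.T2 * c.T2 ∧ 0 < c.c11 ∧ 0 < c.det ∧
  eok (c.n : ℚ) (c.c22 * 1048576 / c.det) (-c.c12 * 1048576 / c.det) (c.c11 * 1048576 / c.det)
    (1048576 / c.ib) ∧
  c.cL * (c.n * (c.n + 2)) * 1048576 ≤
    (c.l0 * (c.n + 2) - 3 * c.ka) * 1048576 + c.n * (c.n + 2) * tsum tab c.lam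

instance (tab : ℕ → ℤ) : Decidable (c.hdA tab) := by unfold hdA; infer_instance

def okA (tab : ℕ → ℤ) : Bool := decide (c.hdA tab) && c.run fun a _ _ _ => Nat.ble c.T2 a

/-- the side conditions of a cell for all large dimensions -/
def hdB : Prop :=
  c.hd ∧ c.n = 32 ∧ c.T1 = 0 ∧ c.sg = 0 ∧ c.c12 = 0 ∧ c.cL = 0 ∧ c.x0 = 0 ∧
  (∀ N ∈ c.nodes, N.x = 0) ∧ 4194304 ≤ 96 * c.c11 ∧ 4194304 ≤ 96 * c.ib ∧ 0 < c.c22 ∧
  26214400 * (128 * c.ib + c.c22) ≤ 768 * c.c22 * c.ib ∧ 0 ≤ c.f0 ∧ 0 < c.a1 ∧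
  2272 * 1048576 ^ 4 ≤ 100 * c.Tq * c.a1 ^ 2

instance : Decidable c.hdB := by unfold hdB; infer_instance

/-- the inequality beyond the last node -/
def tl (a : ℕ) (W P : ℤ) (A : ℕ) : Prop :=
  c.c22 * P ^ 2 + 4 * c.ib * W ^ 2 * c.Tq + 8 * 1048576 ^ 4 * c.mu +
    4 * 1048576 ^ 3 * ((A : ℤ) ^ 2 - 1048576 ^ 2) ≤ 8 * 1048576 ^ 2 * W * (A * a - 1048576 ^ 2)

def tail (a : ℕ) (u W P : ℤ) : Prop :=
  u = 0 ∧ 0 ≤ W ∧ c.f0 * 1048576 ≤ 2 * W * a ∧ c.tl a W P c.a1 ∧ c.tl a W P c.a2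

instance (a : ℕ) (u W P : ℤ) : Decidable (c.tail a u W P) := by unfold tail tl; infer_instance

def okB : Bool :=
  decide c.hdB && c.run fun a u v P => decide (c.tail a (u.p - u.m) (v.p - v.m) (P.p - P.m))

end Cell

/-! ### coverings -/

inductive Tree
  | leaf (c : Cell)
  | top (c : Cell)
  | out
  | A (m : ℕ) (l r : Tree)
  | T (m : ℕ) (l r : Tree)

/-- `D ^ 4` times the numerator of the bound for the product of the parameters -/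
def tnum (n : ℕ) : ℕ := 45 * (n + 1) ^ 2 * (n + 3) ^ 2 * 1048576 ^ 4

def tden (n : ℕ) : ℕ := 64 * (n + 2) ^ 2 * (n + 4)

def Tree.ok (n : ℕ) (tab : ℕ → ℤ) : Tree → ℕ → ℕ → ℕ → ℕ → Bool
  | leaf c, a1, a2, T1, T2 =>
      decide (c.n = n ∧ c.a1 ≤ a1 ∧ a2 ≤ c.a2 ∧ c.T1 ≤ T1 ∧ T2 ≤ c.T2) && c.okA tab
  | top c, a1, a2, T1, _ => decide (c.n = n ∧ c.a1 ≤ a1 ∧ a2 ≤ c.a2 ∧ c.T1 ≤ T1 ∧ 0 < a1 ∧
      tnum n ≤ tden n * (a1 * c.T2) ^ 2) && c.okA tab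
  | out, a1, _, T1, _ => decide (tnum n < tden n * (a1 * T1) ^ 2)
  | A m l r, a1, a2, T1, T2 => l.ok n tab a1 m T1 T2 && r.ok n tab m a2 T1 T2
  | T m l r, a1, a2, T1, T2 => l.ok n tab a1 a2 T1 m && r.ok n tab a1 a2 m T2

/-! ### lower bounds for the means of the hinges -/

/-- the test on the interval from `i / 80` to `(i + 1) / 80` -/
def hpiece (n j i : ℕ) (lo K u0 u1 : Z) : Bool :=
  let d := (u1.sub u0).nrm
  let A : P3 := ⟨Z.nrm ⟨Nat.mul n i, 80⟩, ⟨n, 0⟩, Z.o⟩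
  let B : P3 := lin2 ⟨Nat.mul 4 i, 0⟩ ⟨4, 0⟩ (Z.nrm ⟨i, 80⟩) ⟨1, 0⟩
  bern 4 (((A.mul ⟨K, u0.nm 2, d⟩).add (B.mul ⟨u0, d, Z.o⟩)).add3
    ⟨(Z.mk (Nat.mul 167772160 (Nat.sub i (Nat.mul 4 j))) 0).sub (lo.nm 12800),
      cond (Nat.ble (Nat.mul 4 j) i) ⟨167772160, 0⟩ Z.o, Z.o⟩).tob

def hpieces (n j : ℕ) (lo : Z) : List ℤ → ℕ → Z → Z → Bool
  | [], i, _, _ => Nat.ble 80 i
  | u :: L, i, K, u0 => hpiece n j i lo K u0 (Z.of u) &&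
      hpieces n j lo L (Nat.succ i) (K.add (u0.add (Z.of u))).nrm (Z.of u)

structure Row where
  (lo k0 u0 : ℤ)
  us : List ℤ

def rowsOk (n : ℕ) : List Row → ℕ → Bool
  | [], _ => true
  | r :: L, j => hpieces n j (Z.of r.lo) r.us 0 ((Z.of r.k0).nm 160) (Z.of r.u0) &&
      rowsOk n L (Nat.succ j)

/-- the table of lower bounds; the first row has index one -/
def tabOf (L : List ℤ) (j : ℕ) : ℤ := (0 :: L).getD j 0

end Vale.Agent.P237
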